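import Vale.Agent.P014Y.F.St
import Vale.Agent.P014Y.F.Ra.Lv0
import Vale.Agent.P014Y.F.Pt.Kd
import Vale.Agent.P014U.Pp.Van0

/-! # P014Y, block F, row VAN: the local cohomology has bounded exponent (helper15) -/

set_option linter.all false

open NumberField Matrix

noncomputable section

namespace Vale.Agent.P014Y.F

open Vale.Agent.P022 Vale.Agent.P004K Vale.Agent.P014U
open Vale.Agent.P022D.W (dec inP_le_dec conj_inP)
open Vale.Agent.P022.H443 (inP)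
open Vale.Agent.P022E.GW (Ov)
open P004F.Pr (ac ac_add ac_smul ac_zero)
open P004F.En (Wd wd_comm)
open P004F.Ra (ac_mul ac_one ac_sm)
open P004F.Va (Co ac_s1 ac_sub add_ac det_kill det_cj)
open P014U.Pp.Vn (Wl ac_sum)

namespace Va

variable {R M : Type} [CommRing R] [AddCommGroup M] [Module R M] {l : ℕ} {P : Ideal (𝓞 Qb)}
  {a : GQ → M2 R} {x y : GQ → Fin 2 → M} {g s w : GQ}

/-- cocycles are trivial on the wild inertia group -/
theorem avg (o : Ov l P) (hl : IsUnit (l : R)) (z : Co P a x) :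
    ∃ m, ∀ w ∈ Wl o, x w = ac (a w - 1) m := by
  obtain ⟨U, oU, hU⟩ := z.lc
  obtain ⟨V, v, le⟩ := P022K.G2.ex_lv' oU
  have := v.nrm
  have := Fact.mk o.1
  have : V.FiniteIndex := ⟨P004S.idx_ne v.opn⟩
  let N := V.subgroupOf (Wl o)
  have := Fintype.ofFinite (Wl o ⧸ N)
  have d : ∀ w : Wl o, (w : GQ) ∈ dec P := fun w => inP_le_dec w.2.1
  have e : ∀ w w' : Wl o, (w : Wl o ⧸ N) = w' → x w' = x w := fun w w' h => by
    have := z.coc _ (d w) _ (d (w⁻¹ * w'))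
    rwa [hU _ (le (Subgroup.mem_subgroupOf.1 (QuotientGroup.eq.1 h))) (w⁻¹ * w').2.1, ac_zero,
      add_zero, ← Subgroup.coe_mul, mul_inv_cancel_left] at this
  obtain ⟨k, hk⟩ := IsPGroup.iff_card.1 (show IsPGroup l (Wl o ⧸ N) from fun q => by
    obtain ⟨w, rfl⟩ := QuotientGroup.mk_surjective q
    exact (w.2.2 V v.nrm v.opn).imp fun n h => (QuotientGroup.eq_one_iff (w ^ l ^ n)).2 h)
  obtain ⟨u, hu⟩ := (hl.pow k).exists_left_inv
  refine ⟨-u • ∑ q : Wl o ⧸ N, x q.out, fun w hw => ?_⟩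
  have := Equiv.sum_comp (Equiv.mulLeft ((⟨w, hw⟩ : Wl o) : Wl o ⧸ N)) fun q => x q.out
  rw [Finset.sum_congr rfl fun q _ => (e (⟨w, hw⟩ * q.out) _ (by simp)).trans
    (z.coc w (d ⟨w, hw⟩) _ (d q.out)), Finset.sum_add_distrib, ← ac_sum, Finset.sum_const,
    Finset.card_univ, ← Nat.card_eq_fintype_card, hk, ← Nat.cast_smul_eq_nsmul R, Nat.cast_pow,
    ← eq_sub_iff_add_eq] at this
  rw [ac_smul, ac_s1, neg_smul, ← smul_neg, neg_sub, ← this, smul_smul, hu, one_smul]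

theorem sm2 (u v : R) (A B : M2 R) : (u * v) • (A * B) = u • A * v • B :=
  (smul_mul_smul_comm ..).symm

theorem sm3 {u d : R} {n : ℕ} (h : (n : R) = d * u) (v : Fin 2 → M) : n • v = u • d • v := by
  rw [smul_smul, mul_comm, ← h, Nat.cast_smul_eq_nsmul]

/-- the local data -/
structure Dt (l : ℕ) (P : Ideal (𝓞 Qb)) (a : GQ → M2 R) : Prop where
  ov : Ov l P
  un : IsUnit (l : R)
  mul : ∀ g ∈ dec P, ∀ h ∈ dec P, a (g * h) = a g * a h
  lc : ∃ U : Subgroup GQ, IsOpen (U : Set GQ) ∧ ∀ g ∈ U, g ∈ inP P → a g = 1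

section

variable (D : Dt l P a)
include D

theorem Dt.cob (m : Fin 2 → M) : Co P a fun g => ac (a g - 1) m :=
  ⟨fun g b h c => by simp only [ac_s1, D.mul g b h c, ac_mul, ac_sub, sub_add_sub_cancel'],
    D.lc.imp fun _ u => ⟨u.1, fun g b c => by rw [ac_s1, u.2 g b c, ac_one, sub_self]⟩⟩

theorem Dt.cj (hg : g ∈ dec P) (hs : s ∈ dec P) : (a (g * s * g⁻¹) - 1).det = (a s - 1).det := by
  obtain ⟨U, -, u⟩ := D.lc
  have e : a g * a g⁻¹ = 1 := by
    rw [← D.mul g hg _ (inv_mem hg), mul_inv_cancel, u 1 (one_mem _) (one_mem _)]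
  rw [D.mul _ (mul_mem hg hs) _ (inv_mem hg), D.mul g hg s hs, ← e, ← sub_mul, ← mul_sub_one, e,
    det_mul, det_mul, mul_right_comm, ← det_mul, e, det_one, one_mul]

theorem Dt.fix (z : Co P a x) (h : ∀ w ∈ Wl D.ov, x w = 0) (hg : g ∈ dec P) (hw : w ∈ Wl D.ov) :
    ac (a w) (x g) = x g := by
  have c := Wl.conj hw (inv_mem hg)
  have e := z.coc g hg _ (inP_le_dec c.1)
  rwa [h _ c, ac_zero, add_zero, show g * (g⁻¹ * w * g⁻¹⁻¹) = w * g by group,
    z.coc w (inP_le_dec hw.1) g hg, h w hw, zero_add] at e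

theorem Dt.core0 (z : Co P a x) (h : ∀ w ∈ Wl D.ov, x w = 0) (hs : s ∈ inP P) :
    ∃ m, ∀ g ∈ dec P, (a s - 1).det ^ 3 • x g = ac (a g - 1) m := by
  have ds := inP_le_dec hs
  have z1 := (z.smul (a s - 1).det).sub (D.cob (ac (a s - 1).adjugate (x s)))
  have e1 : (a s - 1).det • x s - ac (a s - 1) (ac (a s - 1).adjugate (x s)) = 0 := by
    rw [← ac_mul, mul_adjugate, ac_sm, ac_one, sub_self]
  have e2 : ∀ w ∈ Wl D.ov, (a s - 1).det • x w - ac (a w - 1) (ac (a s - 1).adjugate (x s)) = 0 :=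
    fun w hw => by
    have k : (a s - 1).adjugate = ((a s).trace - 1) • 1 + (-1 : R) • a s := by
      ext i j; fin_cases i <;> fin_cases j <;> simp [adjugate_fin_two, trace_fin_two] <;> ring
    have c := Wl.conj hw (inv_mem ds)
    rw [h w hw, smul_zero, zero_sub, neg_eq_zero, ac_s1, k, add_ac, ac_sm, ac_sm, ac_one, ac_add,
      ac_smul, ac_smul, D.fix z h ds hw, ← ac_mul, ← D.mul w (inP_le_dec hw.1) s ds,
      show w * s = s * (s⁻¹ * w * s⁻¹⁻¹) by group, D.mul s ds _ (inP_le_dec c.1), ac_mul,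
      D.fix z h ds c, sub_self]
  refine ⟨((a s - 1).det * (a s - 1).det) • ac (a s - 1).adjugate (x s), fun g hg => ?_⟩
  generalize hy : (fun g => (a s - 1).det • x g - ac (a g - 1) (ac (a s - 1).adjugate (x s))) = y
    at z1
  replace e1 : y s = 0 := hy ▸ e1
  replace e2 : ∀ w ∈ Wl D.ov, y w = 0 := hy ▸ e2
  have c := conj_inP hg hs
  have dc := inP_le_dec c
  have m := mul_mem (mul_mem hs c) (inv_mem (mul_mem c hs))
  have wd : _ ∈ Wl D.ov := ⟨m, wd_comm D.ov hs c⟩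
  have e := z1.coc _ (inP_le_dec m) _ (mul_mem dc ds)
  rw [inv_mul_cancel_right, e2 _ wd, D.fix z1 e2 (mul_mem dc ds) wd, z1.coc s ds _ dc,
    z1.coc _ dc s ds, e1, ac_zero, zero_add, zero_add, add_zero, ← sub_eq_zero, ← ac_s1] at e
  have e' := (z1.smul (a s - 1).det).coc _ dc g hg
  rw [inv_mul_cancel_right, (z1.smul _).coc g hg s ds, e1, smul_zero, ac_zero, det_kill e, add_zero,
    zero_add, eq_comm, ← sub_eq_zero, ← ac_s1] at e'
  have k := det_kill e'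
  rw [← hy] at k
  simp only [D.cj hg ds, smul_sub, smul_smul, sub_eq_zero] at k
  rw [ac_smul, ← k]
  congr 1
  ring

/-- **the local classes are killed by the cube of `det (a s - 1)`** -/
theorem Dt.core (z : Co P a x) (hs : s ∈ inP P) :
    ∃ m, ∀ g ∈ dec P, (a s - 1).det ^ 3 • x g = ac (a g - 1) m := by
  obtain ⟨n, hn⟩ := avg D.ov D.un z
  obtain ⟨m, hm⟩ := D.core0 (z.sub (D.cob n)) (fun w hw => sub_eq_zero.2 (hn w hw)) hs
  exact ⟨m + (a s - 1).det ^ 3 • n, fun g hg => by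
    rw [ac_add, ac_smul, ← hm g hg, smul_sub, sub_add_cancel]⟩

end

section

variable [IsDomain R]

theorem mul0 {A B : M2 R} (h : A.trace = 0) (h' : A.det = 0) (k : B.trace = 0) (k' : B.det = 0)
    (t : (A * B).trace = 0) : A * B = 0 := by
  simp only [trace_fin_two, det_fin_two, mul_apply, Fin.sum_univ_two] at h h' k k' t
  have a := eq_neg_of_add_eq_zero_right h
  have b := eq_neg_of_add_eq_zero_right k
  rw [a] at h' t
  rw [b] at k' t
  ext i j
  refine pow_eq_zero_iff two_ne_zero |>.1 ?_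
  fin_cases i <;> fin_cases j <;> simp only [mul_apply, Fin.sum_univ_two, Fin.zero_eta, Fin.mk_one,
    Fin.isValue, a, b]
  · linear_combination A 0 1 * B 1 0 * t + B 0 1 * B 1 0 * h' - A 0 0 ^ 2 * k'
  · linear_combination -A 0 1 * B 0 1 * t - B 0 1 ^ 2 * h' - A 0 1 ^ 2 * k'
  · linear_combination -A 1 0 * B 1 0 * t - B 1 0 ^ 2 * h' - A 1 0 ^ 2 * k'
  · linear_combination A 1 0 * B 0 1 * t + B 0 1 * B 1 0 * h' - A 0 0 ^ 2 * k'

/-- a group of unipotent matrices has a fixed vector -/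
theorem kol {G : Type} [Group G] {D : Subgroup G} (r : G →* M2 R) (e : ∀ g ∈ D, (r g).det = 1)
    (u : ∀ g ∈ D, (r g - 1).det = 0) : ∃ v, v ≠ 0 ∧ ∀ g ∈ D, r g *ᵥ v = v := by
  have t : ∀ g ∈ D, (r g - 1).trace = 0 := fun g hg => by
    have a := u g hg
    have b := e g hg
    simp only [det_fin_two, trace_fin_two, Matrix.sub_apply, one_apply_eq, ne_eq, zero_ne_one,
      not_false_eq_true, one_apply_ne, one_ne_zero, sub_zero] at a b ⊢
    linear_combination b - a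
  by_cases k : ∀ g ∈ D, r g = 1
  · exact ⟨1, one_ne_zero, fun g hg => by rw [k g hg, one_mulVec]⟩
  push Not at k
  obtain ⟨j, hj, j0⟩ := k
  obtain ⟨w, hw⟩ : ∃ w, (r j - 1) *ᵥ w ≠ 0 := by
    by_contra! c
    exact j0 (sub_eq_zero.1 (Matrix.ext_of_mulVec_single fun i => by rw [c, zero_mulVec]))
  refine ⟨_, hw, fun g hg => sub_eq_zero.1 ?_⟩
  have := mul0 (t g hg) (u g hg) (t j hj) (u j hj) (by
    rw [show (r g - 1) * (r j - 1) = r (g * j) - 1 - (r g - 1) - (r j - 1) by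
      rw [map_mul]; noncomm_ring, trace_sub, trace_sub, t _ (mul_mem hg hj), t g hg, t j hj]
    simp)
  have := congrArg (· *ᵥ w) this
  simp only [← mulVec_mulVec, zero_mulVec] at this
  rwa [sub_mulVec (r g), one_mulVec] at this

end

variable [Pp]

theorem ex_s (e : Crv) {p : ℕ} (hp : p ∈ e.S) (h2 : p ≠ pp) (hσ : p ∉ e.σ) :
    ∃ s ∈ inP (e.P p), (e.r s - 1).det ≠ 0 := by
  classical
  by_contra! k
  exact hσ (Finset.mem_filter.2 ⟨List.mem_toFinset.2 hp, h2,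
    kol e.r (fun g hg => e.det_in (e.ov p hp) h2 hg) k⟩)

theorem un {j p : ℕ} (hp : p.Prime) (h : p ≠ pp) : IsUnit (p : Rj j) := by
  have := (Pp.Vn.un_l (R := ℤ_[pp]) PadicInt.toZMod hp h).map (cj j)
  rwa [map_natCast] at this

end Va

variable [Pp]

open Va in
theorem van (r2 : RC2) : VAN := fun e b => by
  have : ∀ p, ∃ v, p ∈ e.S → p ≠ pp → p ∉ e.σ →
      ∃ s ∈ inP (e.P p), (e.r s - 1).det ∣ (pp : ℤ_[pp]) ^ v := fun p => by
    by_cases h : p ∈ e.S ∧ p ≠ pp ∧ p ∉ e.σ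
    · obtain ⟨s, a, d⟩ := ex_s e h.1 h.2.1 h.2.2
      exact (Pp.Vn.ex_pow d).imp fun v k _ _ _ => ⟨s, a, k⟩
    · exact ⟨0, fun a b c => absurd ⟨a, b, c⟩ h⟩
  choose v hv using this
  let V := ∑ p ∈ e.S.toFinset, v p
  refine ⟨V * 3, fun p hp h2 hσ j c Ψ h M _ _ T x z P o => ?_⟩
  obtain ⟨s, hs, d⟩ := hv p hp h2 hσ
  obtain ⟨t, t1, -⟩ := P004S.ex_conj o (e.ov p hp)
  obtain ⟨t', -, t2⟩ := P004S.ex_conj (e.ov p hp) o
  have le : dec P ≤ b.Γ := fun g hg => by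
    simpa [mul_assoc] using b.Γ_conj (b.le p hp (t2 g hg)) t'
  have ps : ∀ g ∈ inP P, b.aa j Ψ g = Ra.rj e j g := fun g hg => by
    rw [Fld.aa, h.ker g (Ra.unr_hc r2 b.iq (Nat.pos_of_ne_zero h.sq.ne_zero) o
      (fun d => (h.cop p (Nat.mem_primeFactors.2 ⟨o.1, d, h.sq.ne_zero⟩)).1 hp)
      (le (inP_le_dec hg)) hg), one_smul, Ra.rj_apply]
  have D : Dt p P (b.aa j Ψ) := ⟨o, un o.1 h2, fun g a g' a' => by
      rw [Fld.aa, Fld.aa, Fld.aa, h.mul g (le a) g' (le a'), map_mul, Matrix.map_mul,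
        sm2],
    (Ra.rj e j).ker, Ra.rj_open e j, fun g a k => (ps g k).trans a⟩
  have Z : Co P (b.aa j Ψ) x :=
    ⟨fun g a g' a' => z.coc g (le a) g' (le a'), z.lc.imp fun _ u => ⟨u.1, fun g a _ => u.2 g a⟩⟩
  have i : t⁻¹ * s * t⁻¹⁻¹ ∈ inP P := by rw [inv_inv]; exact t1 s hs
  obtain ⟨m, hm⟩ := D.core Z i
  rw [ps _ i, det_cj] at hm
  obtain ⟨u, hu⟩ := pow_dvd_pow_of_dvd (Pp.Vn.det_map (cj j) (d.trans (pow_dvd_pow _
    (Finset.single_le_sum (fun _ _ => Nat.zero_le _) (List.mem_toFinset.2 hp))))) 3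
  refine ⟨u • m, fun g hg => ?_⟩
  rw [ac_smul, ← hm g hg]
  exact sm3 (by rw [Nat.cast_pow, pow_mul]; exact hu) _

end Vale.Agent.P014Y.F
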